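import Vale.Agent.P181.TS.Spec

set_option autoImplicit false

/-!
# P181, FD: complementary minors
-/

namespace Vale.Agent.P181.FD.H662

open Finset Polynomial
open Vale.Agent.P181.TS

/-- Jacobi's identity for complementary minors of the adjugate. -/
theorem jacobi {K : Type*} [CommRing K] {b k l : ℕ} (P : Matrix (Fin b) (Fin b) K)
    (ρ κ : Fin k ⊕ Fin l ≃ Fin b) :
    ∃ ε : ℤ, (ε = 1 ∨ ε = -1) ∧
      (ε : K) * P.det * (Matrix.of fun i j : Fin l => P.adjugate (κ (.inr i)) (ρ (.inr j))).det =
        (Matrix.of fun i j : Fin k => P (ρ (.inl i)) (κ (.inl j))).det * P.det ^ l := by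
  classical
  set M : Matrix (Fin k ⊕ Fin l) (Fin k ⊕ Fin l) K := P.submatrix ρ κ with hM
  set N : Matrix (Fin k ⊕ Fin l) (Fin k ⊕ Fin l) K := P.adjugate.submatrix κ ρ with hN
  have hMN : M * N = P.det • 1 := by
    rw [hM, hN, Matrix.submatrix_mul_equiv, Matrix.mul_adjugate]
    ext i j
    rw [Matrix.submatrix_apply, Matrix.smul_apply, Matrix.smul_apply, Matrix.one_apply,
      Matrix.one_apply]
    simp
  have hdM : M.det = ((Equiv.Perm.sign (ρ.symm.trans κ) : ℤ) : K) * P.det := by
    have h1 : M = (P.submatrix id (ρ.symm.trans κ)).submatrix ρ ρ := by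
      ext i j
      simp [hM]
    rw [h1, Matrix.det_submatrix_equiv_self, Matrix.det_permute']
  set T : Matrix (Fin k ⊕ Fin l) (Fin k ⊕ Fin l) K :=
    Matrix.fromBlocks 1 N.toBlocks₁₂ 0 N.toBlocks₂₂ with hT
  have hMT : M * T = Matrix.fromBlocks M.toBlocks₁₁ 0 M.toBlocks₂₁ (P.det • 1) := by
    have h1 : M = Matrix.fromBlocks M.toBlocks₁₁ M.toBlocks₁₂ M.toBlocks₂₁ M.toBlocks₂₂ :=
      (Matrix.fromBlocks_toBlocks M).symm
    have h2 : N = Matrix.fromBlocks N.toBlocks₁₁ N.toBlocks₁₂ N.toBlocks₂₁ N.toBlocks₂₂ :=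
      (Matrix.fromBlocks_toBlocks N).symm
    have h3 : M * N = Matrix.fromBlocks
        (M.toBlocks₁₁ * N.toBlocks₁₁ + M.toBlocks₁₂ * N.toBlocks₂₁)
        (M.toBlocks₁₁ * N.toBlocks₁₂ + M.toBlocks₁₂ * N.toBlocks₂₂)
        (M.toBlocks₂₁ * N.toBlocks₁₁ + M.toBlocks₂₂ * N.toBlocks₂₁)
        (M.toBlocks₂₁ * N.toBlocks₁₂ + M.toBlocks₂₂ * N.toBlocks₂₂) := by
      conv_lhs => rw [h1, h2]
      rw [Matrix.fromBlocks_multiply]
    have h4 : (P.det • 1 : Matrix (Fin k ⊕ Fin l) (Fin k ⊕ Fin l) K) =
        Matrix.fromBlocks (P.det • 1) 0 0 (P.det • 1) := by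
      rw [← Matrix.fromBlocks_one, Matrix.fromBlocks_smul, smul_zero, smul_zero]
    rw [hMN, h4] at h3
    obtain ⟨_, h5, _, h6⟩ := Matrix.fromBlocks_inj.1 h3
    conv_lhs => rw [h1]
    rw [hT, Matrix.fromBlocks_multiply, Matrix.mul_one, Matrix.mul_zero, Matrix.mul_one,
      Matrix.mul_zero, add_zero, add_zero, ← h5, ← h6]
  have hdet : M.det * N.toBlocks₂₂.det = M.toBlocks₁₁.det * P.det ^ l := by
    have h1 := congrArg Matrix.det hMT
    rw [Matrix.det_mul, hT, Matrix.det_fromBlocks_zero₂₁, Matrix.det_one, one_mul,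
      Matrix.det_fromBlocks_zero₁₂, Matrix.det_smul, Matrix.det_one, mul_one,
      Fintype.card_fin] at h1
    exact h1
  refine ⟨((Equiv.Perm.sign (ρ.symm.trans κ) : ℤˣ) : ℤ), ?_, ?_⟩
  · rcases Int.units_eq_one_or (Equiv.Perm.sign (ρ.symm.trans κ)) with h | h
    · left
      rw [h]
      rfl
    · right
      rw [h]
      rfl
  · rw [← hdM]
    exact hdet

/-- rows: the first `b - l` ones, then the last `l` ones backwards -/
noncomputable def rowE {b l : ℕ} (hl : l ≤ b) : Fin (b - l) ⊕ Fin l ≃ Fin b :=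
  Equiv.ofBijective (Sum.elim (fun i => Fin.castLE (Nat.sub_le b l) i)
    (fun j => Fin.rev (Fin.castLE hl j))) (by
    rw [Fintype.bijective_iff_injective_and_card]
    refine ⟨?_, by simp [hl]⟩
    rintro (i | i) (j | j) h
    · simp only [Sum.elim_inl] at h
      rw [Fin.castLE_inj] at h
      rw [h]
    · simp only [Sum.elim_inl, Sum.elim_inr] at h
      have h1 := congrArg Fin.val h
      rw [Fin.val_castLE, Fin.val_rev, Fin.val_castLE] at h1
      omega
    · simp only [Sum.elim_inl, Sum.elim_inr] at h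
      have h1 := congrArg Fin.val h
      rw [Fin.val_castLE, Fin.val_rev, Fin.val_castLE] at h1
      omega
    · simp only [Sum.elim_inr] at h
      rw [Fin.rev_inj, Fin.castLE_inj] at h
      rw [h])

/-- letters: `e'` and `e` -/
noncomputable def colE {b k l : ℕ} (hkl : k + l = b) (e : Fin l → Fin b)
    (e' : Fin k → Fin b) (he : Function.Injective e) (he' : Function.Injective e')
    (hd : ∀ i j, e i ≠ e' j) : Fin k ⊕ Fin l ≃ Fin b :=
  Equiv.ofBijective (Sum.elim e' e) (by
    rw [Fintype.bijective_iff_injective_and_card]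
    refine ⟨?_, by simp [hkl]⟩
    rintro (i | i) (j | j) h
    · exact congrArg _ (he' h)
    · exact absurd h.symm (hd j i)
    · exact absurd h (hd i j)
    · exact congrArg _ (he h))

/-- the square matrix of the configuration: rows `i`, letters `u` -/
noncomputable def sq {b R : ℕ} (r : ℕ) (cl : Fin b → Fin R) (y : Fin b → Fin R → Bool)
    (G : Fin b → ℕ → ℂ) : Matrix (Fin b) (Fin b) ℂ[X] :=
  Matrix.of fun i u => pt r cl y G b u i

lemma mn_eq {b R : ℕ} (r : ℕ) (cl : Fin b → Fin R) (y : Fin b → Fin R → Bool)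
    (G : Fin b → ℕ → ℂ) {k : ℕ} (hk : k ≤ b) (e : Fin k → Fin b) :
    mn r cl y G k e = (Matrix.of fun i j : Fin k => sq r cl y G (Fin.castLE hk i) (e j)).det := by
  rw [← Matrix.det_transpose, mn]
  rfl

/-- the minors of the adjugate -/
theorem minor_dual {b R : ℕ} (r : ℕ) (cl : Fin b → Fin R) (y : Fin b → Fin R → Bool)
    (G : Fin b → ℕ → ℂ) {l : ℕ} (hl : l ≤ b) (e : Fin l → Fin b) (e' : Fin (b - l) → Fin b)
    (he : Function.Injective e) (he' : Function.Injective e') (hd : ∀ i j, e i ≠ e' j) :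
    ∃ ε : ℤ, (ε = 1 ∨ ε = -1) ∧ (ε : ℂ[X]) * (sq r cl y G).det *
      (Matrix.of fun i s : Fin l =>
        (sq r cl y G).adjugate (e i) (Fin.rev (Fin.castLE hl s))).det =
      mn r cl y G (b - l) e' * (sq r cl y G).det ^ l := by
  obtain ⟨ε, h1, h2⟩ := jacobi (sq r cl y G) (rowE hl)
    (colE (Nat.sub_add_cancel hl) e e' he he' hd)
  refine ⟨ε, h1, ?_⟩
  rw [mn_eq r cl y G (Nat.sub_le b l) e']
  exact h2

/-- the rows `≥ m` can be changed so that the square matrix is invertible -/
theorem exists_ext {b R m : ℕ} (r : ℕ) (cl : Fin b → Fin R) (y : Fin b → Fin R → Bool)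
    (G : Fin b → ℕ → ℂ) (hR : R ≤ m) (hm : m ≤ b) (e : Fin m → Fin b)
    (he : Function.Injective e) (h : mn r cl y G m e ≠ 0) :
    ∃ G' : Fin b → ℕ → ℂ, (∀ l, l ≤ m → ∀ f : Fin l → Fin b, mn r cl y G' l f = mn r cl y G l f) ∧
      (sq r cl y G').det ≠ 0 := by
  classical
  -- the complement
  set S : Finset (Fin b) := (univ.image e)ᶜ with hS
  have hcard : S.card = b - m := by
    rw [hS, card_compl, card_image_of_injective _ he, card_univ, Fintype.card_fin,
      Fintype.card_fin]
  let e2 : Fin (b - m) → Fin b := fun i => S.orderEmbOfFin hcard i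
  have he2i : Function.Injective e2 := (S.orderEmbOfFin hcard).injective
  have hdis : ∀ i j, e2 i ≠ e j := by
    intro i j hij
    have h1 : e2 i ∈ S := orderEmbOfFin_mem _ hcard i
    rw [hS, mem_compl] at h1
    exact h1 (hij ▸ mem_image_of_mem e (mem_univ j))
  refine ⟨fun u i => if h : m ≤ i ∧ i < b then
    (if u = e2 ⟨i - m, by omega⟩ then 1 else 0) else G u i, ?_, ?_⟩
  · intro l hl f
    rw [mn, mn]
    congr 1
    ext1 a s
    rw [Matrix.of_apply, Matrix.of_apply, pt, pt]
    by_cases hs : (s : ℕ) < R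
    · rw [dif_pos hs, dif_pos hs]
    · rw [dif_neg hs, dif_neg hs, dif_neg]
      rintro ⟨h1, _⟩
      have := s.2
      omega
  · set G' : Fin b → ℕ → ℂ := fun u i => if h : m ≤ i ∧ i < b then
      (if u = e2 ⟨i - m, by omega⟩ then 1 else 0) else G u i with hG'
    -- row and column equivalences
    let ρ : Fin m ⊕ Fin (b - m) ≃ Fin b := finSumFinEquiv.trans (finCongr (by omega))
    let κ : Fin m ⊕ Fin (b - m) ≃ Fin b := colE (by omega) e2 e he2i he hdis
    have h1 : (sq r cl y G').submatrix ρ κ = Matrix.fromBlocks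
        (Matrix.of fun i j : Fin m => sq r cl y G (Fin.castLE hm i) (e j))
        (Matrix.of fun (i : Fin m) (j : Fin (b - m)) => sq r cl y G (Fin.castLE hm i) (e2 j))
        0 1 := by
      ext1 i j
      rw [Matrix.submatrix_apply]
      rcases i with i | i
      · have hρ : ρ (Sum.inl i) = Fin.castLE hm i := by
          apply Fin.ext
          simp [ρ]
        have h2 : ∀ u, sq r cl y G' (Fin.castLE hm i) u = sq r cl y G (Fin.castLE hm i) u := by
          intro u
          rw [sq, sq, Matrix.of_apply, Matrix.of_apply, pt, pt]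
          by_cases hs : ((Fin.castLE hm i : Fin b) : ℕ) < R
          · rw [dif_pos hs, dif_pos hs]
          · rw [dif_neg hs, dif_neg hs, hG']
            simp only
            rw [dif_neg]
            rintro ⟨h3, _⟩
            have := i.2
            rw [Fin.val_castLE] at h3
            omega
        rcases j with j | j
        · rw [Matrix.fromBlocks_apply₁₁, hρ, h2]
          rfl
        · rw [Matrix.fromBlocks_apply₁₂, hρ, h2]
          rfl
      · have hρ : ((ρ (Sum.inr i) : Fin b) : ℕ) = m + i := by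
          simp [ρ]
        have h2 : ∀ u, sq r cl y G' (ρ (Sum.inr i)) u = if u = e2 i then 1 else 0 := by
          intro u
          rw [sq, Matrix.of_apply, pt, dif_neg (by rw [hρ]; omega), hG']
          simp only
          rw [dif_pos (by have := i.2; omega)]
          have h3 : (⟨((ρ (Sum.inr i) : Fin b) : ℕ) - m, by have := i.2; omega⟩ : Fin (b - m)) = i := by
            apply Fin.ext
            simp only
            omega
          rw [h3]
          split_ifs
          · rw [map_one]
          · rw [map_zero]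
        rcases j with j | j
        · rw [Matrix.fromBlocks_apply₂₁, h2, Matrix.zero_apply, if_neg]
          exact fun h4 => hdis i j h4.symm
        · rw [Matrix.fromBlocks_apply₂₂, h2, Matrix.one_apply]
          have h4 : κ (Sum.inr j) = e2 j := rfl
          rw [h4]
          by_cases h5 : i = j
          · subst h5
            rw [if_pos rfl, if_pos rfl]
          · rw [if_neg h5, if_neg]
            exact fun h6 => h5 (he2i h6).symm
    have h2 := congrArg Matrix.det h1
    rw [Matrix.det_fromBlocks_zero₂₁, Matrix.det_one, mul_one, ← mn_eq r cl y G hm e] at h2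
    intro h0
    apply h
    rw [← h2]
    have h3 : (sq r cl y G').submatrix ρ κ =
        ((sq r cl y G').submatrix id (ρ.symm.trans κ)).submatrix ρ ρ := by
      ext i j
      simp
    rw [h3, Matrix.det_submatrix_equiv_self, Matrix.det_permute', h0, mul_zero]

end Vale.Agent.P181.FD.H662
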